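import Mathlib

/-!
# Row 255 (helper32): exactness from a well founded filtration of the bases

Every basis element has a level in `L`, levels have a height in a well order `O`; the maps keep the level
or lower the height.  If the graded pieces are exact, so is the complex.
-/

set_option autoImplicit false
open Finsupp

noncomputable section

namespace Crest.Agent.N255.Fl

variable {R X Y Z L O : Type*} [CommRing R] [LinearOrder O]

/-- supported on one level -/
def On (l : X → L) (w : L) (a : X →₀ R) : Prop := ∀ x, a x ≠ 0 → l x = w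

/-- `f` keeps the level or lowers the height -/
def Low (ht : L → O) (lX : X → L) (lY : Y → L) (f : (X →₀ R) →ₗ[R] (Y →₀ R)) : Prop :=
  ∀ x y, f (single x 1) y ≠ 0 → lY y = lX x ∨ ht (lY y) < ht (lX x)

theorem exists_of_ne (f : (X →₀ R) →ₗ[R] (Y →₀ R)) {a : X →₀ R} {y : Y} (h : f a y ≠ 0) :
    ∃ x, a x ≠ 0 ∧ f (single x 1) y ≠ 0 := by
  by_contra hc
  push Not at hc
  apply h
  conv_lhs => rw [← a.sum_single]
  rw [Finsupp.sum, map_sum, Finsupp.finsetSum_apply]
  refine Finset.sum_eq_zero fun x hx => ?_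
  rw [← smul_single_one, map_smul, Finsupp.smul_apply, hc x (mem_support_iff.1 hx), smul_zero]

variable {ht : L → O} {lX : X → L} {lY : Y → L} {lZ : Z → L}
  {f : (X →₀ R) →ₗ[R] (Y →₀ R)} {g : (Y →₀ R) →ₗ[R] (Z →₀ R)}

theorem Low.apply (hf : Low ht lX lY f) {a : X →₀ R} {y : Y} (h : f a y ≠ 0) :
    ∃ x, a x ≠ 0 ∧ (lY y = lX x ∨ ht (lY y) < ht (lX x)) :=
  let ⟨x, h1, h2⟩ := exists_of_ne f h; ⟨x, h1, hf x y h2⟩

/-- the reduction: `Q` is any property of chains which is stable under `- f a` and under which the top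
part can be hit -/
theorem mem_range_of_gr [WellFoundedLT O] (hf : Low ht lX lY f) (Q : (Y →₀ R) → Prop)
    (hQ : ∀ b a, Q b → Q (b - f a))
    (gr : ∀ w b, Q b → (∀ y, b y ≠ 0 → ht (lY y) ≤ ht w) →
      ∃ a, On lX w a ∧ ∀ y, lY y = w → f a y = b y) (b : Y →₀ R) (hb : Q b) : ∃ a, f a = b := by
  classical
  have key : ∀ o : O, ∀ n : ℕ, ∀ b : Y →₀ R, Q b → (∀ y, b y ≠ 0 → ht (lY y) ≤ o) →
      ((b.support.image lY).filter (ht · = o)).card ≤ n → ∃ a, f a = b := by
    intro o
    induction o using WellFoundedLT.induction with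
    | ind o iho =>
    intro n
    induction n with
    | zero =>
      intro b hb h1 h2
      rcases b.support.eq_empty_or_nonempty with e | hne
      · exact ⟨0, by rw [support_eq_empty.1 e, map_zero]⟩
      obtain ⟨y0, hy0, hmax⟩ := b.support.exists_max_image (fun y => ht (lY y)) hne
      refine iho (ht (lY y0)) (lt_of_le_of_ne (h1 _ (mem_support_iff.1 hy0)) fun e => ?_) _ b hb
        (fun y hy => hmax y (mem_support_iff.2 hy)) le_rfl
      have : lY y0 ∈ (b.support.image lY).filter (ht · = o) :=
        Finset.mem_filter.2 ⟨Finset.mem_image_of_mem _ hy0, e⟩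
      rw [Finset.card_eq_zero.1 (Nat.le_zero.1 h2)] at this
      exact Finset.notMem_empty _ this
    | succ n ihn =>
      intro b hb h1 h2
      rcases ((b.support.image lY).filter (ht · = o)).eq_empty_or_nonempty with e | ⟨w, hw⟩
      · exact ihn b hb h1 (by rw [e]; exact Nat.zero_le _)
      have hwo : ht w = o := (Finset.mem_filter.1 hw).2
      obtain ⟨a, ha, hab⟩ := gr w b hb (hwo ▸ h1)
      have hlow : ∀ y, f a y ≠ 0 → lY y = w ∨ ht (lY y) < o := fun y hy => by
        obtain ⟨x, hx, h⟩ := hf.apply hy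
        rwa [ha x hx, hwo] at h
      obtain ⟨a', ha'⟩ := ihn (b - f a) (hQ b a hb) (fun y hy => by
        by_cases e : b y = 0
        · rcases hlow y (fun e' => hy (by rw [Finsupp.sub_apply, e, e', sub_zero])) with h | h
          · rw [h, hwo]
          · exact h.le
        · exact h1 y e) (by
        refine Nat.le_of_lt_succ (lt_of_lt_of_le (Finset.card_lt_card ⟨fun u hu => ?_, fun hs => ?_⟩) h2)
        · obtain ⟨hu1, hu2⟩ := Finset.mem_filter.1 hu
          obtain ⟨y, hy, rfl⟩ := Finset.mem_image.1 hu1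
          by_cases e : b y = 0
          · rcases hlow y (fun e' => mem_support_iff.1 hy
              (by rw [Finsupp.sub_apply, e, e', sub_zero])) with h | h
            · rw [h]; exact hw
            · exact absurd hu2 h.ne
          · exact Finset.mem_filter.2 ⟨Finset.mem_image_of_mem _ (mem_support_iff.2 e), hu2⟩
        · obtain ⟨y, hy, e⟩ := Finset.mem_image.1 (Finset.mem_filter.1 (hs hw)).1
          exact mem_support_iff.1 hy (by rw [Finsupp.sub_apply, hab y e, sub_self]))
      exact ⟨a + a', by rw [map_add, ha', add_sub_cancel]⟩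
  rcases b.support.eq_empty_or_nonempty with e | hne
  · exact ⟨0, by rw [support_eq_empty.1 e, map_zero]⟩
  obtain ⟨y0, -, hmax⟩ := b.support.exists_max_image (fun y => ht (lY y)) hne
  exact key _ _ b hb (fun y hy => hmax y (mem_support_iff.2 hy)) le_rfl

open Classical in
/-- the part of level `w` -/
def part (l : X → L) (w : L) (a : X →₀ R) : X →₀ R := a.filter (l · = w)

theorem part_of_eq {w : L} (a : X →₀ R) {x : X} (h : lX x = w) : part lX w a x = a x := by
  simp [part, h]

theorem part_of_ne {w : L} (a : X →₀ R) {x : X} (h : lX x ≠ w) : part lX w a x = 0 := by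
  simp [part, h]

theorem on_part (w : L) (a : X →₀ R) : On lX w (part lX w a) := fun _ hx =>
  by_contra fun e => hx (part_of_ne a e)

/-- on the top level only the top part contributes -/
theorem Low.part_top (hg : Low ht lY lZ g) {w : L} {b : Y →₀ R}
    (hb : ∀ y, b y ≠ 0 → ht (lY y) ≤ ht w) {z : Z} (hz : lZ z = w) : g (part lY w b) z = g b z := by
  have : g (b - part lY w b) z = 0 := by
    by_contra h
    obtain ⟨y, hy, h'⟩ := hg.apply h
    have hne : lY y ≠ w := fun e => hy (by rw [Finsupp.sub_apply, part_of_eq b e, sub_self])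
    rw [Finsupp.sub_apply, part_of_ne b hne, sub_zero] at hy
    rcases h' with h' | h'
    · exact hne (h' ▸ hz)
    · exact absurd (hb y hy) (not_le.2 (hz ▸ h'))
  rw [map_sub, Finsupp.sub_apply, sub_eq_zero] at this
  exact this.symm

/-- **exactness from the graded pieces** -/
theorem exact_of_gr [WellFoundedLT O] (hf : Low ht lX lY f) (hg : Low ht lY lZ g)
    (hgf : ∀ a, g (f a) = 0)
    (gr : ∀ w b, On lY w b → (∀ z, lZ z = w → g b z = 0) →
      ∃ a, On lX w a ∧ ∀ y, lY y = w → f a y = b y) : Function.Exact f g := by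
  refine fun b => ⟨fun hb => ?_, fun ⟨a, ha⟩ => ha ▸ hgf a⟩
  refine mem_range_of_gr hf (fun b => g b = 0) (fun b a h => by rw [map_sub, h, hgf, sub_zero])
    (fun w b h hw => ?_) b hb
  obtain ⟨a, h1, h2⟩ := gr w (part lY w b) (on_part w b) fun z hz => by
    rw [hg.part_top hw hz, h]; rfl
  exact ⟨a, h1, fun y hy => (h2 y hy).trans (part_of_eq b hy)⟩

/-- injectivity from the graded pieces -/
theorem inj_of_gr [WellFoundedLT O] (hg : Low ht lY lZ g)
    (gr : ∀ w b, On lY w b → (∀ z, lZ z = w → g b z = 0) → b = 0) : Function.Injective g := by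
  have h := exact_of_gr (X := Empty) (lX := fun x => x.elim) (f := 0) (fun x => x.elim) hg
    (fun _ => map_zero g) fun w b h1 h2 => ⟨0, fun x => x.elim, fun y _ => by rw [gr w b h1 h2]; rfl⟩
  refine (injective_iff_map_eq_zero g).2 fun b hb => ?_
  obtain ⟨a, ha⟩ := (h b).1 hb
  exact ha.symm

/-- surjectivity from the graded pieces -/
theorem surj_of_gr [WellFoundedLT O] (hf : Low ht lX lY f)
    (gr : ∀ w b, On lY w b → ∃ a, On lX w a ∧ ∀ y, lY y = w → f a y = b y) :
    Function.Surjective f := fun b =>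
  mem_range_of_gr hf (fun _ => True) (fun _ _ _ => trivial) (fun w b _ _ => by
    obtain ⟨a, h1, h2⟩ := gr w (part lY w b) (on_part w b)
    exact ⟨a, h1, fun y hy => (h2 y hy).trans (part_of_eq b hy)⟩) b trivial

/-- exactness at the end of the complex: `s` is the augmentation or the orientation sum, `w0` the
lowest level -/
theorem exact_end [WellFoundedLT O] {M : Type*} [AddCommGroup M] (hf : Low ht lX lY f)
    (s : (Y →₀ R) →+ M) (hs : ∀ a, s (f a) = 0) (w0 : L) (h0 : ∀ y, lY y ≠ w0 → ht w0 < ht (lY y))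
    (gr0 : ∀ b, On lY w0 b → s b = 0 → ∃ a, On lX w0 a ∧ ∀ y, lY y = w0 → f a y = b y)
    (gr : ∀ w, w ≠ w0 → ∀ b, On lY w b → ∃ a, On lX w a ∧ ∀ y, lY y = w → f a y = b y) :
    Function.Exact f s := by
  refine fun b => ⟨fun hb => ?_, fun ⟨a, ha⟩ => ha ▸ hs a⟩
  refine mem_range_of_gr hf (fun b => s b = 0) (fun b a h => by rw [map_sub, h, hs, sub_zero])
    (fun w b h hw => ?_) b hb
  by_cases e : w = w0
  · subst e
    exact gr0 b (fun y hy => by_contra fun e => absurd (hw y hy) (not_le.2 (h0 y e))) h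
  · obtain ⟨a, h1, h2⟩ := gr w e (part lY w b) (on_part w b)
    exact ⟨a, h1, fun y hy => (h2 y hy).trans (part_of_eq b hy)⟩

/-- a contraction of the graded piece: `k` raises the degree on the level `w` -/
theorem gr_of_contraction {w : L} (k : (Y →₀ R) →ₗ[R] (X →₀ R)) (k' : (Z →₀ R) →ₗ[R] (Y →₀ R))
    (hk : ∀ y, lY y = w → On lX w (k (single y 1)))
    (h : ∀ y y', lY y = w → lY y' = w →
      f (k (single y 1)) y' + k' (part lZ w (g (single y 1))) y' = single y (1 : R) y')
    (b : Y →₀ R) (hb : On lY w b) (hg : ∀ z, lZ z = w → g b z = 0) :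
    ∃ a, On lX w a ∧ ∀ y, lY y = w → f a y = b y := by
  classical
  refine ⟨k b, fun x hx => ?_, fun y' hy' => ?_⟩
  · obtain ⟨y, h1, h2⟩ := exists_of_ne k hx
    exact hk y (hb y h1) x h2
  · let p : (Z →₀ R) →ₗ[R] (Z →₀ R) :=
      { toFun := part lZ w
        map_add' := fun a b => filter_add
        map_smul' := fun r a => filter_smul }
    have e0 : p (g b) = 0 := by
      ext z
      by_cases e : lZ z = w
      · exact (part_of_eq _ e).trans (hg z e)
      · exact part_of_ne _ e
    have e1 : (f ∘ₗ k + k' ∘ₗ p ∘ₗ g - LinearMap.id : (Y →₀ R) →ₗ[R] (Y →₀ R)) b y' = 0 := by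
      by_contra hc
      obtain ⟨y, h1, h2⟩ := exists_of_ne _ hc
      apply h2
      have := h y y' (hb y h1) hy'
      simp only [LinearMap.sub_apply, LinearMap.add_apply, LinearMap.comp_apply, LinearMap.id_apply,
        Finsupp.sub_apply, Finsupp.add_apply]
      exact sub_eq_zero.2 this
    simp only [LinearMap.sub_apply, LinearMap.add_apply, LinearMap.comp_apply, LinearMap.id_apply,
      e0, map_zero, add_zero, Finsupp.sub_apply] at e1
    exact sub_eq_zero.1 e1

end Crest.Agent.N255.Fl

end
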